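import Vale.Agent.P226.Main

open MeasureTheory ProbabilityTheory

namespace Vale.Agent.Results.P226.Propeller

/-- The Gaussian propeller conjecture: for every partition of Euclidean space, up to null sets,
into finitely many measurable cells, the squared norms of the Gaussian first moments of the cells
sum to at most `9 / (8 π)`. -/
theorem result (d k : ℕ) (A : Fin k → Set (EuclideanSpace ℝ (Fin d)))
    (hm : ∀ i, NullMeasurableSet (A i) (stdGaussian (EuclideanSpace ℝ (Fin d))))
    (hd : ∀ i j, i ≠ j → stdGaussian (EuclideanSpace ℝ (Fin d)) (A i ∩ A j) = 0)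
    (hc : stdGaussian (EuclideanSpace ℝ (Fin d)) (⋃ i, A i)ᶜ = 0) :
    ∑ i, ‖∫ x in A i, x ∂(stdGaussian (EuclideanSpace ℝ (Fin d)))‖ ^ 2 ≤ 9 / (8 * Real.pi) :=
  Vale.Agent.P226.propeller A hm (fun i j h => hd i j h) (by
    have h : ∀ᵐ x ∂(stdGaussian (EuclideanSpace ℝ (Fin d))), x ∈ ⋃ i, A i := hc
    filter_upwards [h] with x hx
    exact Set.mem_iUnion.1 hx)

end Vale.Agent.Results.P226.Propeller
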